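import Vale.Agent.P287D.St
import Vale.Agent.P287D.Va.Cone

/-!
# P287D: intersection numbers of b-divisors, I. Multilinearity, finiteness, signs
-/

set_option linter.unusedSectionVars false

open Set Function

noncomputable section

namespace Vale.Agent.P287D.In

section ml

variable {V : Type} [AddCommGroup V] [Module ℝ V] {n : ℕ} {C : Submodule ℝ V}
  {F : (Fin n → V) → ℝ}

/-- `F` is multilinear on the tuples of members of `C` -/
structure MlOn (C : Submodule ℝ V) (F : (Fin n → V) → ℝ) : Prop where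
  add : ∀ β i a b, (∀ j, β j ∈ C) → a ∈ C → b ∈ C →
    F (update β i (a + b)) = F (update β i a) + F (update β i b)
  smul : ∀ β i (c : ℝ) a, (∀ j, β j ∈ C) → a ∈ C → F (update β i (c • a)) = c * F (update β i a)

theorem upd_mem {p : V → Prop} {β : Fin n → V} (h : ∀ j, p (β j)) (i : Fin n) {a : V} (ha : p a)
    (j : Fin n) : p (update β i a j) := by
  rcases eq_or_ne j i with rfl | e
  · rwa [update_self]
  · rw [update_of_ne e]; exact h j

namespace MlOn

theorem sub (h : MlOn C F) (β i a b) (hβ : ∀ j, β j ∈ C) (ha : a ∈ C) (hb : b ∈ C) :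
    F (update β i (a - b)) = F (update β i a) - F (update β i b) := by
  rw [sub_eq_add_neg, h.add β i a _ hβ ha (neg_mem hb), ← neg_one_smul ℝ b, h.smul β i _ b hβ hb]
  ring

theorem zero (h : MlOn C F) (β i) (hβ : ∀ j, β j ∈ C) : F (update β i 0) = 0 := by
  simpa using h.smul β i 0 0 hβ C.zero_mem

theorem ind (h : MlOn C F) {S : Set V} (hS : S ⊆ C) {p : ℝ → Prop} (p0 : p 0)
    (p1 : ∀ x y, p x → p y → p (x + y)) (p2 : ∀ c x, p x → p (c * x))
    (h0 : ∀ a : Fin n → V, (∀ i, a i ∈ S) → p (F a)) (b : Fin n → V)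
    (hb : ∀ i, b i ∈ Submodule.span ℝ S) : p (F b) := by
  have hC : Submodule.span ℝ S ≤ C := Submodule.span_le.2 hS
  have key : ∀ J : Finset (Fin n), ∀ a : Fin n → V, (∀ i, a i ∈ Submodule.span ℝ S) →
      (∀ i ∉ J, a i ∈ S) → p (F a) := fun J => by
    induction J using Finset.induction_on with
    | empty => exact fun a _ k => h0 a fun i => k i (Finset.notMem_empty i)
    | insert j J hj ih =>
      intro a k1 k2
      have c : ∀ i, a i ∈ C := fun i => hC (k1 i)
      have : ∀ x ∈ Submodule.span ℝ S, p (F (update a j x)) := fun x hx => by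
        induction hx using Submodule.span_induction with
        | mem x hx =>
          refine ih _ (upd_mem k1 j (Submodule.subset_span hx)) fun i hi => ?_
          rcases eq_or_ne i j with rfl | e
          · rwa [update_self]
          · rw [update_of_ne e]; exact k2 i (by simp [e, hi])
        | zero => rwa [h.zero a j c]
        | add x y hx hy a1 a2 => rw [h.add a j x y c (hC hx) (hC hy)]; exact p1 _ _ a1 a2
        | smul t x hx a1 => rw [h.smul a j t x c (hC hx)]; exact p2 _ _ a1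
      simpa using this _ (k1 j)
  exact key Finset.univ b hb fun i hi => absurd (Finset.mem_univ i) hi

theorem zero_of_span (h : MlOn C F) {S : Set V} (hS : S ⊆ C)
    (h0 : ∀ a : Fin n → V, (∀ i, a i ∈ S) → F a = 0) (b : Fin n → V)
    (hb : ∀ i, b i ∈ Submodule.span ℝ S) : F b = 0 :=
  h.ind hS (p := (· = 0)) rfl (fun x y a b => by rw [a, b, add_zero])
    (fun c x a => by rw [a, mul_zero]) h0 b hb

/-- change the entries one after the other -/
theorem chain {r : ℝ → ℝ → Prop} (rf : ∀ x, r x x) (tr : ∀ x y z, r x y → r y z → r x z)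
    (a b : Fin n → V) (h : ∀ (c : Fin n → V) i, (∀ j, c j = a j ∨ c j = b j) →
      r (F (update c i (a i))) (F (update c i (b i)))) : r (F a) (F b) := by
  have key : ∀ J : Finset (Fin n), r (F a) (F (J.piecewise b a)) := fun J => by
    induction J using Finset.induction_on with
    | empty => simpa using rf _
    | insert j J hj ih =>
      refine tr _ _ _ ih ?_
      have := h (J.piecewise b a) j fun i => by
        by_cases e : i ∈ J <;> simp [e]
      rwa [← Finset.piecewise_insert, show update (J.piecewise b a) j (a j) = J.piecewise b a by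
        rw [update_eq_self_iff, Finset.piecewise_eq_of_notMem _ _ _ hj]] at this
  simpa using key Finset.univ

theorem smul_all (h : MlOn C F) (c : Fin n → ℝ) (a : Fin n → V) (ha : ∀ j, a j ∈ C) :
    F (fun j => c j • a j) = (∏ j, c j) * F a := by
  have key : ∀ J : Finset (Fin n),
      F (J.piecewise (fun j => c j • a j) a) = (∏ j ∈ J, c j) * F a := fun J => by
    induction J using Finset.induction_on with
    | empty => simp
    | insert j J hj ih =>
      rw [Finset.piecewise_insert, h.smul _ _ _ _ (fun i => by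
        by_cases e : i ∈ J <;> simp [e, ha, C.smul_mem]) (ha j), Finset.prod_insert hj, mul_assoc,
        ← ih, show update (J.piecewise (fun j => c j • a j) a) j (a j) = _ by
        rw [update_eq_self_iff, Finset.piecewise_eq_of_notMem _ _ _ hj]]
  simpa using key Finset.univ

end MlOn

end ml

variable {n : ℕ} {K : Type} [Field K] [Algebra ℂ K] {β γ Z Z' Λ : BD K}

/-- the number of a prime divisor against Cartier b-divisors -/
def cf (P : Pl K) (β : Fin n → BD K) : ℝ := I n P.κ fun i => res P (β i)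

theorem I_succ (β : Fin (n + 1) → BD K) :
    I (n + 1) K β = ∑ᶠ P : Pl K, β 0 P * cf P fun i => β i.succ := rfl

theorem I_cons (Z : BD K) (β : Fin n → BD K) :
    I (n + 1) K (Fin.cons Z β) = ∑ᶠ P : Pl K, Z P * cf P β := rfl

theorem I_δ (P : Pl K) (β : Fin n → BD K) : I (n + 1) K (Fin.cons P.δ β) = cf P β := by
  rw [I_cons, finsum_eq_single _ P fun Q e => by rw [Pl.δ_ne e, zero_mul], Pl.δ_self, one_mul]

theorem vol_succ (β : BD K) : vol (n + 1) β = I (n + 1) K (Fin.cons β fun _ => β) := rfl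

theorem res_car (P : Pl K) (β : BD K) : res P β ∈ Car P.κ := by
  unfold res
  split_ifs
  exacts [Submodule.sum_mem _ fun _ _ => Submodule.smul_mem _ _ (mx_mem_Car _), zero_mem _]

theorem upd_tail (β : Fin (n + 1) → BD K) (k : Fin n) (a : BD K) :
    (fun i => update β k.succ a i.succ) = update (fun i => β i.succ) k a := funext fun i => by
  rcases eq_or_ne i k with rfl | e
  · simp
  · rw [update_of_ne e, update_of_ne (Fin.succ_inj.ne.2 e)]

theorem cf_upd (P : Pl K) (β : Fin n → BD K) (k : Fin n) (a : BD K) :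
    cf P (update β k a) = I n P.κ (update (fun i => res P (β i)) k (res P a)) :=
  congrArg (I n P.κ) (comp_update (res P) β k a)

theorem I_upd_zero (β : Fin (n + 1) → BD K) (a : BD K) :
    I (n + 1) K (update β 0 a) = I (n + 1) K (Fin.cons a fun i => β i.succ) := by
  simp only [I_succ, update_self, update_of_ne (Fin.succ_ne_zero _), Fin.cons_zero, Fin.cons_succ]

theorem I_upd_succ (β : Fin (n + 1) → BD K) (k : Fin n) (a : BD K) :
    I (n + 1) K (update β k.succ a) = I (n + 1) K (Fin.cons (β 0) (update (fun i => β i.succ) k a)) := by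
  rw [I_succ, I_cons, upd_tail, update_of_ne (Fin.succ_ne_zero k).symm]

theorem cons_smul (c : ℝ) (Z : BD K) (β : Fin n → BD K) :
    I (n + 1) K (Fin.cons (c • Z) β) = c * I (n + 1) K (Fin.cons Z β) := by
  simp only [I_cons, Pi.smul_apply, smul_eq_mul, mul_assoc]
  exact (mul_finsum _ _).symm

theorem IsB.add (h : IsB n Z) (h' : IsB n Z') : IsB n (Z + Z') := fun s hs =>
  ((h s hs).union (h' s hs)).subset fun P hP => by
    by_contra k
    simp only [mem_union, mem_ofPred_eq, hP.1, true_and, not_or, not_not] at k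
    exact hP.2 (by simp [k.1, k.2])

theorem IsB.smul (h : IsB n Z) (c : ℝ) : IsB n (c • Z) := fun s hs =>
  (h s hs).subset fun P hP => ⟨hP.1, fun e => hP.2 (by simp [e])⟩

theorem IsB.neg (h : IsB n Z) : IsB n (-Z) := by simpa using IsB.smul h (-1)

theorem IsB.sub (h : IsB n Z) (h' : IsB n Z') : IsB n (Z - Z') :=
  sub_eq_add_neg Z Z' ▸ IsB.add h (IsB.neg h')

theorem isB_δ (P : Pl K) : IsB n P.δ := fun _ _ =>
  (finite_singleton P).subset fun _ hQ => by_contra fun e => hQ.2 (Pl.δ_ne e)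

/-- the inputs -/
structure Hy : Prop where
  rsd : ForS fun n K _ _ => ∀ P : Pl K, FF P.κ n
  add : ForS fun _ K _ _ => ∀ P, ∀ β ∈ Car K, ∀ γ ∈ Car K, res P (β + γ) = res P β + res P γ
  smul : ForS fun _ K _ _ => ∀ P (c : ℝ), ∀ β ∈ Car K, res P (c • β) = c • res P β
  sys : ForS fun _ K _ _ => ∀ (P : Pl K) s, res P (mx s) = mx (P.rs s)
  isb : ForS fun n K _ _ => ∀ β ∈ Car K, IsB n β
  big : ForK fun n K _ _ => ∃ s : Finset K, Big (mx s) ∧ 0 < vol n (mx s)
  perm : ForK fun n K _ _ => ∀ (β : Fin n → BD K) (σ : Equiv.Perm (Fin n)), (∀ j, β j ∈ Car K) →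
    I n K (β ∘ σ) = I n K β
  dv0 : ForS fun n K _ _ => ∀ (f : K) (β : Fin n → BD K), (∀ j, β j ∈ Car K) →
    I (n + 1) K (Fin.cons (dv f) β) = 0

namespace Hy

section res

variable (h : Hy) (hK : FF K (n + 1)) (P : Pl K)
include h hK

theorem res_sub (a : β ∈ Car K) (b : γ ∈ Car K) : res P (β - γ) = res P β - res P γ := by
  rw [sub_eq_add_neg, h.add n K hK P _ a _ (neg_mem b), ← neg_one_smul ℝ γ, h.smul n K hK P _ _ b,
    neg_one_smul, sub_eq_add_neg]

theorem res_smp (a : Smp β) : Smp (res P β) :=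
  a.ind (p := fun β => Smp (res P β)) (fun s _ => h.sys n K hK P s ▸ smp_mx _)
    (fun a b x y u v => h.add n K hK P a x.car b y.car ▸ u.add v)
    fun c a k x u => h.smul n K hK P c a x.car ▸ u.smul k

theorem res_nef (a : Nef β) : Nef (res P β) :=
  let ⟨s, hs⟩ := id a
  ⟨P.rs s, fun ε e => by
    have := h.res_smp hK P (hs ε e)
    rwa [h.add n K hK P _ a.car _ (Submodule.smul_mem _ _ (mx_mem_Car s)),
      h.smul n K hK P _ _ (mx_mem_Car s), h.sys n K hK] at this⟩

theorem res_prn (a : β ∈ Prn K) : res P β ∈ Prn P.κ :=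
  Prn.ind (p := fun β => res P β ∈ Prn P.κ) a (fun f _ => by
    classical
    rw [dv_eq_mx, h.sys n K hK, Pl.rs, Finset.image_singleton, mx_single]
    exact neg_mem (dv_mem_Prn _))
    (fun a b x y u v => h.add n K hK P a (Prn_le_Car x) b (Prn_le_Car y) ▸ add_mem u v)
    fun c a x u => h.smul n K hK P c a (Prn_le_Car x) ▸ Submodule.smul_mem _ c u

theorem res_carZ (a : β ∈ CarZ K) : res P β ∈ CarZ P.κ := by
  obtain ⟨s, u, -, -, rfl⟩ := mem_CarZ.1 a
  rw [h.res_sub hK P (mx_mem_Car s) (mx_mem_Car u), h.sys n K hK, h.sys n K hK]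
  exact sub_mem (mx_mem_CarZ _) (mx_mem_CarZ _)

end res

end Hy

theorem Dsc.car (h : Dsc Λ β) : β ∈ Car K := by
  obtain ⟨ε, e, a, b⟩ := h
  have := (Car K).smul_mem (2 * ε)⁻¹ (sub_mem a.car b.car)
  rwa [add_sub_sub_cancel, ← add_smul, ← two_mul, inv_smul_smul₀ (by positivity)] at this

theorem Dsc.smp (h : Dsc Λ β) : Smp Λ := by
  obtain ⟨ε, -, a, b⟩ := h
  refine Smp.of_smul two_pos ?_
  simpa [two_smul] using a.add b

theorem Hy.res_dsc (h : Hy) (hK : FF K (n + 1)) (P : Pl K) (a : Dsc Λ β) :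
    Dsc (res P Λ) (res P β) := by
  have c : ∀ (t : ℝ) {x}, x ∈ Car K → t • x ∈ Car K := fun t _ => (Car K).smul_mem t
  obtain ⟨ε, e, x, y⟩ := id a
  refine ⟨ε, e, ?_, ?_⟩
  · rw [← h.smul n K hK P ε β (Dsc.car a), ← h.add n K hK P _ (Dsc.smp a).car _ (c _ (Dsc.car a))]
    exact h.res_smp hK P x
  · rw [← h.smul n K hK P ε β (Dsc.car a), ← h.res_sub hK P (Dsc.smp a).car (c _ (Dsc.car a))]
    exact h.res_smp hK P y

/-- finitely many Cartier b-divisors descend to a common model over a given one -/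
theorem exists_dsc {ι : Type} [Finite ι] {β : ι → BD K} (hβ : ∀ i, β i ∈ Car K) (s₀ : Finset K) :
    ∃ s, Smp (mx s - mx s₀) ∧ ∀ i, Dsc (mx s) (β i) := by
  classical
  cases nonempty_fintype ι
  choose u _ a b using fun i => Car.exists_mx (hβ i)
  obtain ⟨w, -, e⟩ := exists_mx_sum Finset.univ u
  obtain ⟨s, -, e'⟩ := exists_mx_add s₀ w
  have k : ∀ i, Smp (mx s - mx (u i)) := fun i => by
    rw [e', e, ← Finset.add_sum_erase _ _ (Finset.mem_univ i), add_comm (mx (u i)), ← add_assoc,
      add_sub_cancel_right]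
    exact (smp_mx _).add (Smp.sum _ fun j _ => smp_mx _)
  refine ⟨s, by simpa [e'] using smp_mx w, fun i => ⟨1, one_pos, ?_, ?_⟩⟩
  · simpa [← add_assoc] using (k i).add (a i)
  · simpa using (k i).add (b i)

/-- the rows which pass from a dimension to the next one -/
structure Row (n : ℕ) (K : Type) [Field K] [Algebra ℂ K] : Prop where
  ml : MlOn (Car K) (I n K)
  nef : ∀ β : Fin n → BD K, (∀ j, Nef (β j)) → 0 ≤ I n K β
  nn : ∀ (β : Fin n → BD K) i, β i ∈ Car K → Psef (β i) → (∀ j, j ≠ i → Nef (β j)) → 0 ≤ I n K β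
  prn : ∀ (β : Fin n → BD K) i, (∀ j, β j ∈ Car K) → β i ∈ Prn K → I n K β = 0

namespace Row

theorem mono (h : Row n K) {a b : Fin n → BD K} (ha : ∀ i, Nef (a i)) (hb : ∀ i, Nef (b i))
    (hab : ∀ i, Psef (b i - a i)) : I n K a ≤ I n K b := by
  refine MlOn.chain (r := (· ≤ ·)) le_refl (fun _ _ _ => le_trans) a b fun c i hc => ?_
  have k : ∀ j, Nef (c j) := fun j => (hc j).elim (fun e => e ▸ ha j) fun e => e ▸ hb j
  rw [← sub_nonneg, ← h.ml.sub c i _ _ (fun j => (k j).car) (hb i).car (ha i).car]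
  refine h.nn _ i ?_ ?_ fun j e => ?_
  · rw [update_self]; exact sub_mem (hb i).car (ha i).car
  · rw [update_self]; exact hab i
  · rw [update_of_ne e]; exact k j

theorem vol_smul (h : Row n K) (c : ℝ) (a : β ∈ Car K) : vol n (c • β) = c ^ n * vol n β := by
  simpa [vol] using h.ml.smul_all (fun _ => c) (fun _ => β) fun _ => a

theorem zero_of_dsc (h : Row n K) (h0 : vol n Λ ≤ 0) (hΛ : Nef Λ) {b : Fin n → BD K}
    (hb : ∀ i, ∃ ε : ℝ, 0 < ε ∧ Nef (Λ + ε • b i) ∧ Nef (Λ - ε • b i)) : I n K b = 0 := by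
  refine h.ml.zero_of_span (S := {N | Nef N ∧ Psef ((2 : ℝ) • Λ - N)}) (fun _ k => k.1.car)
    (fun a k => le_antisymm ?_ (h.nef a fun j => (k j).1)) b fun i => ?_
  · refine (h.mono (fun j => (k j).1) (fun _ => hΛ.smul zero_le_two) fun j => (k j).2).trans ?_
    exact (h.vol_smul 2 hΛ.car).trans_le (mul_nonpos_of_nonneg_of_nonpos (by positivity) h0)
  · obtain ⟨ε, e, x, y⟩ := hb i
    have := Submodule.smul_mem _ (2 * ε)⁻¹ (sub_mem
      (Submodule.subset_span (R := ℝ) (s := {N | Nef N ∧ Psef ((2 : ℝ) • Λ - N)})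
        ⟨x, by simpa [two_smul, add_sub_add_left_eq_sub] using y.psef⟩)
      (Submodule.subset_span ⟨y, by simpa [two_smul, add_sub_sub_cancel] using x.psef⟩))
    rwa [add_sub_sub_cancel, ← add_smul, ← two_mul, inv_smul_smul₀ (by positivity)] at this

end Row

namespace Hy

section step

variable (h : Hy) (hK : FF K (n + 1)) (r : ∀ P : Pl K, Row n P.κ) {b : Fin n → BD K}
include h hK r

theorem exc' {P : Pl K} (hP : ¬ On n Λ P) (hΛ : Smp Λ) (hb : ∀ i, Dsc Λ (b i)) : cf P b = 0 :=
  (r P).zero_of_dsc (not_lt.1 hP) (h.res_smp hK P hΛ).nef fun i =>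
    let ⟨ε, e, x, y⟩ := h.res_dsc hK P (hb i)
    ⟨ε, e, x.nef, y.nef⟩

theorem fin' (hZ : IsB n Z) (hb : ∀ i, b i ∈ Car K) : (support fun P => Z P * cf P b).Finite := by
  obtain ⟨s₀, k, -⟩ := h.big _ K hK
  obtain ⟨s, a, c⟩ := exists_dsc hb s₀
  refine (hZ s (k.of_sub a.psef)).subset fun P hP => ⟨by_contra fun e => ?_, left_ne_zero_of_mul hP⟩
  exact right_ne_zero_of_mul hP (h.exc' hK r e (smp_mx s) c)

theorem cons_add' (hZ : IsB n Z) (hZ' : IsB n Z') (hb : ∀ i, b i ∈ Car K) :
    I (n + 1) K (Fin.cons (Z + Z') b) = I (n + 1) K (Fin.cons Z b) + I (n + 1) K (Fin.cons Z' b) := by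
  simp only [I_cons, Pi.add_apply, add_mul]
  exact finsum_add_distrib (h.fin' hK r hZ hb) (h.fin' hK r hZ' hb)

theorem cf_ml' (P : Pl K) : MlOn (Car K) (cf (n := n) P) where
  add β i a b _ x y := by
    rw [cf_upd, cf_upd, cf_upd, h.add n K hK P a x b y,
      (r P).ml.add _ _ _ _ (fun _ => res_car _ _) (res_car _ _) (res_car _ _)]
  smul β i c a _ x := by
    rw [cf_upd, cf_upd, h.smul n K hK P c a x,
      (r P).ml.smul _ _ _ _ (fun _ => res_car _ _) (res_car _ _)]

theorem tail_ml' (hZ : IsB n Z) : MlOn (Car K) fun b : Fin n → BD K => I (n + 1) K (Fin.cons Z b) where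
  add β i a b k x y := by
    simp only [I_cons, (h.cf_ml' hK r _).add β i a b k x y, mul_add]
    exact finsum_add_distrib (h.fin' hK r hZ (upd_mem k i x)) (h.fin' hK r hZ (upd_mem k i y))
  smul β i c a k x := by
    simp only [I_cons, (h.cf_ml' hK r _).smul β i c a k x, mul_left_comm _ c]
    exact (mul_finsum _ _).symm

theorem cons_prn' (hZ : Z ∈ Prn K) (hb : ∀ i, b i ∈ Car K) : I (n + 1) K (Fin.cons Z b) = 0 :=
  Prn.ind (p := fun Z => I (n + 1) K (Fin.cons Z b) = 0) hZ (fun f _ => h.dv0 n K hK f b hb)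
    (fun x y u v a c => by
      rw [h.cons_add' hK r (h.isb n K hK x (Prn_le_Car u)) (h.isb n K hK y (Prn_le_Car v)) hb, a, c,
        add_zero])
    fun c x _ a => by rw [cons_smul, a, mul_zero]

/-- pseudo-effective against classes which are non negative on all prime divisors -/
theorem cons_nn' (hZ : IsB n Z) (hp : Psef Z) (hb : ∀ i, b i ∈ Car K) (h0 : ∀ P, 0 ≤ cf P b) :
    0 ≤ I (n + 1) K (Fin.cons Z b) := by
  obtain ⟨s, hs⟩ := hp
  have m := h.isb n K hK _ (mx_mem_Car s)
  have key : ∀ ε : ℝ, 0 < ε →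
      0 ≤ I (n + 1) K (Fin.cons Z b) + ε * I (n + 1) K (Fin.cons (mx s) b) := fun ε e => by
    obtain ⟨W, hW, k⟩ := eff_iff.1 (hs ε e)
    have : 0 ≤ I (n + 1) K (Fin.cons (Z + ε • mx s + W) b) :=
      finsum_nonneg fun P => mul_nonneg (k P) (h0 P)
    rwa [h.cons_add' hK r (IsB.add hZ (IsB.smul m ε)) (h.isb n K hK W (Prn_le_Car hW)) hb,
      h.cons_prn' hK r hW hb, add_zero, h.cons_add' hK r hZ (IsB.smul m ε) hb, cons_smul] at this
  refine le_of_forall_pos_le_add fun η e => ?_
  have := key (η / (|I (n + 1) K (Fin.cons (mx s) b)| + 1)) (by positivity)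
  refine this.trans (add_le_add_right ?_ _)
  rw [div_mul_eq_mul_div, div_le_iff₀ (by positivity)]
  exact mul_le_mul_of_nonneg_left ((le_abs_self _).trans (le_add_of_nonneg_right zero_le_one)) e.le

theorem step : Row (n + 1) K := by
  have sw : ∀ (β : Fin (n + 1) → BD K) i, (∀ j, β j ∈ Car K) → I (n + 1) K β =
      I (n + 1) K (Fin.cons (β i) fun j => β (Equiv.swap 0 i j.succ)) := fun β i k => by
    rw [← h.perm _ K hK β (Equiv.swap 0 i) k, I_succ, I_cons]
    simp only [comp_apply, Equiv.swap_apply_left]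
  have nn : ∀ (β : Fin (n + 1) → BD K) i, β i ∈ Car K → Psef (β i) → (∀ j, j ≠ i → Nef (β j)) →
      0 ≤ I (n + 1) K β := fun β i a b c => by
    have k : ∀ j : Fin n, Nef (β (Equiv.swap 0 i j.succ)) := fun j => c _ fun e =>
      Fin.succ_ne_zero j ((Equiv.swap 0 i).injective (e.trans (Equiv.swap_apply_left _ _).symm))
    rw [sw β i fun j => if e : j = i then e ▸ a else (c j e).car]
    exact h.cons_nn' hK r (h.isb n K hK _ a) b (fun j => (k j).car) fun P =>
      (r P).nef _ fun j => h.res_nef hK P (k j)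
  refine ⟨⟨fun β i a b k x y => ?_, fun β i c a k x => ?_⟩,
    fun β k => nn β 0 (k 0).car (k 0).psef fun j _ => k j, nn, fun β i k p => ?_⟩
  · induction i using Fin.cases with
    | zero =>
      simp only [I_upd_zero]
      exact h.cons_add' hK r (h.isb n K hK a x) (h.isb n K hK b y) fun _ => k _
    | succ i =>
      simp only [I_upd_succ]
      exact (h.tail_ml' hK r (h.isb n K hK _ (k 0))).add _ i a b (fun _ => k _) x y
  · induction i using Fin.cases with
    | zero => simp only [I_upd_zero, cons_smul]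
    | succ i =>
      simp only [I_upd_succ]
      exact (h.tail_ml' hK r (h.isb n K hK _ (k 0))).smul _ i c a (fun _ => k _) x
  · rw [sw β i k]
    exact h.cons_prn' hK r p fun _ => k _

end step

theorem row (h : Hy) (n : ℕ) : ∀ (K : Type) [Field K] [Algebra ℂ K], FF K n → Row n K := by
  induction n with
  | zero =>
    exact fun K _ _ _ => ⟨⟨fun _ i => i.elim0, fun _ i => i.elim0⟩, fun _ _ => zero_le_one,
      fun _ i => i.elim0, fun _ i => i.elim0⟩
  | succ n ih => exact fun K _ _ hK => h.step hK fun P => ih _ (h.rsd n K hK P)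

theorem rows (h : Hy) (hK : FF K (n + 1)) (P : Pl K) : Row n P.κ := h.row n _ (h.rsd n K hK P)

end Hy

end Vale.Agent.P287D.In
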