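import Vale.Agent.P287D.In.Int
import Vale.Agent.P287D.Ba.I
import Vale.Agent.P287D.Ba.Pos
import Vale.Agent.P287D.I.Siu
import Vale.Agent.P287D.I.Kt

/-!
# P287D: the row VOL
-/

set_option linter.all false

open Set Filter Topology
open Vale.Agent.P277Z Vale.Agent.P277Z.FI

noncomputable section

namespace Vale.Agent.P287D.Ba.Vl

open In

variable {n : ℕ} {K : Type} [Field K] [Algebra ℂ K]

theorem com_one (hK : FF K n) {β : BD K} (h : β ∈ Car K) : ∃ (M : Mdl n 0 K) (D : Div K),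
    M.Proj ∧ M.Dv D ∧ β = bar M D ∧ (β ∈ CarZ K → IsInt D) ∧ (Nef β → M.Nef D) :=
  let ⟨M, D, a, b⟩ := comN' hK (β := fun _ : Unit => β) fun _ => h
  ⟨M, D (), a, b ()⟩

theorem com_two (hK : FF K n) {β γ : BD K} (h : β ∈ Car K) (h' : γ ∈ Car K) :
    ∃ (M : Mdl n 0 K) (D E : Div K), M.Proj ∧ M.Dv D ∧ M.Dv E ∧ β = bar M D ∧ γ = bar M E ∧
      (Nef β → M.Nef D) ∧ (Nef γ → M.Nef E) :=
  let ⟨M, D, a, b⟩ := comN' hK (β := ![β, γ]) (Fin.cases h (Fin.cases h' fun i => i.elim0))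
  ⟨M, D 0, D 1, a, (b 0).1, (b 1).1, (b 0).2.1, (b 1).2.1, (b 0).2.2.2, (b 1).2.2.2⟩

theorem I_cons_bar {M : Mdl (n + 1) 0 K} (hM : M.Proj) (D : Div K) (a : Fin n → Div K) :
    I (n + 1) K (Fin.cons (bar M D) fun i => bar M (a i)) = I.num M (Fin.cons D a) := by
  rw [← I_bar hM]
  congr 1
  funext i
  induction i using Fin.cases <;> rfl

theorem I_cons2_bar {M : Mdl (n + 2) 0 K} (hM : M.Proj) (D E : Div K) (a : Fin n → Div K) :
    I (n + 2) K (Fin.cons (bar M D) (Fin.cons (bar M E) fun i => bar M (a i))) =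
      I.q2 M a D E := by
  rw [I.q2_apply, ← I_cons_bar hM]
  congr 2
  funext i
  induction i using Fin.cases <;> rfl

theorem I2_bar {M : Mdl 2 0 K} (hM : M.Proj) (D E : Div K) :
    I2 (bar M D) (bar M E) = I.i2 M D E := by
  rw [← I_cons2_bar hM]
  congr 3

theorem big_iff_vol (hK : FF K n) {β : BD K} (h : Nef β) : Big β ↔ 0 < vol n β := by
  obtain ⟨M, D, hM, a, rfl, -, b⟩ := com_one hK h.car
  rw [big_bar hM a, vol_bar hM, I.big_iff_vol (pc hM) a (b h)]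

theorem siu (hK : FF K (n + 1)) {A B : BD K} (hA : Nef A) (hB : Nef B)
    (h : (n + 1) * I (n + 1) K (Fin.cons B fun _ => A) < vol (n + 1) A) : Big (A - B) := by
  obtain ⟨M, D, E, hM, a, b, rfl, rfl, c, d⟩ := com_two hK hA.car hB.car
  rw [I_cons_bar hM E fun _ => D, vol_bar hM] at h
  exact map_sub (bar M) D E ▸ big_of hM (I.siu (pc hM) a (c hA) b (d hB) h)

/-- asymptotic Riemann-Roch, with a twist -/
theorem rr_add (hK : FF K n) {β γ : BD K} (h : β ∈ CarZ K) (hn : Nef β) (h' : γ ∈ Car K) :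
    Tendsto (fun m : ℕ => (h0 ((m : ℝ) • β + γ) : ℝ) * n.factorial / m ^ n) atTop
      (𝓝 (vol n β)) := by
  obtain ⟨M, D, E, hM, a, b, rfl, rfl, c, -⟩ := com_two hK hn.car h'
  simp only [← map_smul, ← map_add, h0_bar hM, vol_bar hM]
  exact I.rr_nef (pc hM) ⟨a, int_of_bar hM a (CarZ.int h)⟩ (c hn) b

theorem rr (hK : FF K n) {β : BD K} (h : β ∈ CarZ K) (hn : Nef β) :
    Tendsto (fun m : ℕ => (h0 ((m : ℝ) • β) : ℝ) * n.factorial / m ^ n) atTop (𝓝 (vol n β)) := by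
  simpa only [add_zero] using rr_add hK h hn (zero_mem _)

theorem vol_mono (hK : FF K n) {A B : BD K} (hA : Nef A) (hB : Nef B) (h : Psef (B - A)) :
    vol n A ≤ vol n B := by
  obtain ⟨M, D, E, hM, a, b, rfl, rfl, c, d⟩ := com_two hK hA.car hB.car
  rw [← map_sub, psef_bar hM (dv_sub b a)] at h
  rw [vol_bar hM, vol_bar hM]
  exact I.vol_mono (pc hM) a (c hA) b (d hB) h

theorem hodge (hK : FF K 2) {a b : BD K} (ha : a ∈ Car K) (hb : b ∈ Car K) (h : 0 < I2 a a) :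
    I2 a a * I2 b b ≤ I2 a b ^ 2 ∧
      (I2 a a * I2 b b = I2 a b ^ 2 → Num (I2 a a • b - I2 a b • a)) := by
  obtain ⟨M, D, E, hM, c, d, rfl, rfl, -, -⟩ := com_two hK ha hb
  simp only [I2_bar hM] at h ⊢
  refine ⟨(pc hM).hodge h E, fun e => ?_⟩
  obtain ⟨-, u, v⟩ := F5.nef_of_span (hpos hM) ((pc hM).hodge_eq c d h e.ge)
  rw [← map_smul, ← map_smul, ← map_sub]
  exact ⟨nef_bar hM u, map_neg (bar M) _ ▸ nef_bar hM v⟩

/-- the inequality of Khovanskii and Teissier; `b` need not be nef -/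
theorem kt (hK : FF K (n + 2)) {a b : BD K} {c : Fin n → BD K} (ha : Nef a) (hb : b ∈ Car K)
    (hc : ∀ i, Nef (c i)) :
    I (n + 2) K (Fin.cons a (Fin.cons a c)) * I (n + 2) K (Fin.cons b (Fin.cons b c)) ≤
      I (n + 2) K (Fin.cons a (Fin.cons b c)) ^ 2 := by
  obtain ⟨M, D, hM, k⟩ := comN' hK (β := (Fin.cons a (Fin.cons b c) : Fin (n + 2) → BD K))
    (Fin.cases ha.car (Fin.cases hb fun i => (hc i).car))
  obtain rfl : c = fun i => bar M (D i.succ.succ) := funext fun i => (k i.succ.succ).2.1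
  obtain rfl : b = bar M (D 1) := (k 1).2.1
  have e : a = bar M (D 0) := (k 0).2.1
  have u : M.Nef (D 0) := (k 0).2.2.2 ha
  have v : ∀ i : Fin n, M.Dv (D i.succ.succ) ∧ M.Nef (D i.succ.succ) := fun i =>
    ⟨(k _).1, (k i.succ.succ).2.2.2 (hc i)⟩
  rw [e, I_cons2_bar hM, I_cons2_bar hM, I_cons2_bar hM]
  exact (pc hM).kt v (k 0).1 u _

theorem bigv : BIGV := fun _ _ _ _ hK _ a => (big_iff_vol hK a).2

/-- **VOL** -/
theorem volA : VOL where
  big _ _ _ _ hK _ a := big_iff_vol hK a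
  siu _ _ _ _ hK _ _ := siu hK
  rr _ _ _ _ hK _ := rr hK
  mono _ _ _ _ hK _ _ := vol_mono hK
  hodge _ _ _ hK _ a _ b := hodge hK a b
  kt _ _ _ _ hK _ _ _ a b := kt hK a b.car

end Vale.Agent.P287D.Ba.Vl
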