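import Vale.Agent.P287D.In.Bas
import Vale.Agent.P287D.Cv.Deg
import Vale.Agent.P287D.Cb.Lg

/-!
# P287D: intersection numbers of b-divisors, II. The rows of the interface
-/

set_option linter.unusedSectionVars false

open Set Function

noncomputable section

namespace Vale.Agent.P287D.In

variable {n : ℕ} {K : Type} [Field K] [Algebra ℂ K] {β γ Z Z' Λ H : BD K}

/-- hulls of a prime divisor on high models -/
def HUL : Prop := ForS fun n K _ _ => ∀ (P : Pl K) (B : Set (BD K)), B.Finite → B ⊆ Car K →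
  ∃ Λ η : BD K, Smp Λ ∧ (∀ β ∈ B, Dsc Λ β) ∧ Hull n Λ P.δ η

/-- effective classes which are nef on all prime divisors are nef -/
def NK : Prop := ForS fun _ K _ _ => ∀ β ∈ Car K, Eff β → (∀ P : Pl K, Nef (res P β)) → Nef β

/-- the nef cone is closed -/
def NCL : Prop := ForK fun _ K _ _ => ∀ β H : BD K, H ∈ Car K →
  (∀ ε : ℝ, 0 < ε → Nef (β + ε • H)) → Nef β

/-- nef classes of positive volume are big -/
def BIGV : Prop := ForK fun n K _ _ => ∀ β : BD K, Nef β → 0 < vol n β → Big β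

/-- the criterion of Kleiman -/
def KLM : Prop := ∀ (n : ℕ) (K : Type) [Field K] [Algebra ℂ K], FF K (n + 2) → ∀ β ∈ Car K,
  (∀ P : Pl K, Nef (res P β)) → Nef β

theorem hul_of (h : MOD) : HUL := fun n K _ _ hK P B a b =>
  let ⟨s, _, t, _, c, d, _, e⟩ := h.ex n K hK {P} B (finite_singleton P) a b
  let ⟨η, _, k⟩ := e P (c P rfl)
  ⟨mx s, η, t.smp, d, k⟩

theorem cons_mem {p : BD K → Prop} {b : Fin n → BD K} (h : p Z) (hb : ∀ i, p (b i)) :
    ∀ j, p ((Fin.cons Z b : Fin (n + 1) → BD K) j) := Fin.cases h hb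

theorem exists_rs (P : Pl K) {u : Finset P.κ} (hu : Nz u) : ∃ s : Finset K, P.rs s = u := by
  classical
  choose f a b using fun x : P.κ => Cb.rd_surj x
  obtain ⟨x, hx, x0⟩ := hu
  have k : ∀ y, f y ≠ 0 → 0 ≤ P.ord (f y) := fun y e => (P297Z.Pl.ord_nonneg_iff _ e).2 (a y)
  have e : ¬ Cb.Mx P (f x) := fun e => x0 (b x ▸ (Cb.rd_eq_zero (a x)).2 e)
  rw [Cb.mx_iff, not_or, not_lt] at e
  have z : P.mz (u.image f) = 0 := by
    rw [P.mz_eq (Finset.mem_image_of_mem f hx) e.1 fun g hg g0 => ?_,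
      le_antisymm e.2 (k x e.1), neg_zero]
    obtain ⟨y, -, rfl⟩ := Finset.mem_image.1 hg
    exact e.2.trans (k y g0)
  refine ⟨u.image f, ?_⟩
  ext y
  simp [Pl.rs, z, b]

namespace Hy

variable (h : Hy)
include h

section

variable (hK : FF K (n + 1)) {b : Fin n → BD K}
include hK

theorem res_sur (P : Pl K) {γ : BD P.κ} (a : γ ∈ Car P.κ) : ∃ β ∈ Car K, res P β = γ :=
  Car.ind (p := fun γ => ∃ β ∈ Car K, res P β = γ) a (fun _ hu =>
    let ⟨s, e⟩ := exists_rs P hu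
    ⟨mx s, mx_mem_Car s, e ▸ h.sys n K hK P s⟩)
    (fun _ _ _ _ ⟨x, u, e⟩ ⟨y, v, e'⟩ => ⟨x + y, add_mem u v, e ▸ e' ▸ h.add n K hK P x u y v⟩)
    fun c _ _ ⟨x, u, e⟩ => ⟨c • x, Submodule.smul_mem _ c u, e ▸ h.smul n K hK P c x u⟩

theorem fin (hZ : IsB n Z) (hb : ∀ i, b i ∈ Car K) : (support fun P => Z P * cf P b).Finite :=
  h.fin' hK (h.rows hK) hZ hb

theorem exc {P : Pl K} (hP : ¬ On n Λ P) (hΛ : Smp Λ) (hb : ∀ i, Dsc Λ (b i)) : cf P b = 0 :=
  h.exc' hK (h.rows hK) hP hΛ hb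

theorem cons_add (hZ : IsB n Z) (hZ' : IsB n Z') (hb : ∀ i, b i ∈ Car K) :
    I (n + 1) K (Fin.cons (Z + Z') b) = I (n + 1) K (Fin.cons Z b) + I (n + 1) K (Fin.cons Z' b) :=
  h.cons_add' hK (h.rows hK) hZ hZ' hb

theorem cons_sub (hZ : IsB n Z) (hZ' : IsB n Z') (hb : ∀ i, b i ∈ Car K) :
    I (n + 1) K (Fin.cons (Z - Z') b) = I (n + 1) K (Fin.cons Z b) - I (n + 1) K (Fin.cons Z' b) := by
  rw [sub_eq_add_neg, h.cons_add hK hZ (IsB.neg hZ') hb, ← neg_one_smul ℝ Z', cons_smul]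
  ring

theorem cf_ml (P : Pl K) : MlOn (Car K) (cf (n := n) P) := h.cf_ml' hK (h.rows hK) P

theorem tail_ml (hZ : IsB n Z) : MlOn (Car K) fun b : Fin n → BD K => I (n + 1) K (Fin.cons Z b) :=
  h.tail_ml' hK (h.rows hK) hZ

theorem cons_prn (hZ : Z ∈ Prn K) (hb : ∀ i, b i ∈ Car K) : I (n + 1) K (Fin.cons Z b) = 0 :=
  h.cons_prn' hK (h.rows hK) hZ hb

theorem cons_congr (hZ : IsB n Z) (e : Z' - Z ∈ Prn K) (hb : ∀ i, b i ∈ Car K) :
    I (n + 1) K (Fin.cons Z' b) = I (n + 1) K (Fin.cons Z b) := by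
  have := h.cons_add hK hZ (h.isb n K hK _ (Prn_le_Car e)) hb
  rwa [add_sub_cancel, h.cons_prn hK e hb, add_zero] at this

theorem cf_nef (P : Pl K) (hb : ∀ i, Nef (b i)) : 0 ≤ cf P b :=
  (h.rows hK P).nef _ fun j => h.res_nef hK P (hb j)

theorem cf_prn (P : Pl K) (i : Fin n) (hi : b i ∈ Prn K) : cf P b = 0 :=
  (h.rows hK P).prn _ i (fun _ => res_car _ _) (h.res_prn hK P hi)

theorem cf_perm (P : Pl K) (σ : Equiv.Perm (Fin n)) : cf P (b ∘ σ) = cf P b :=
  h.perm n _ (h.rsd n K hK P) (fun i => res P (b i)) σ fun _ => res_car _ _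

theorem cons_nn (hZ : IsB n Z) (hp : Psef Z) (hb : ∀ i, Nef (b i)) :
    0 ≤ I (n + 1) K (Fin.cons Z b) :=
  h.cons_nn' hK (h.rows hK) hZ hp (fun i => (hb i).car) fun P => h.cf_nef hK P hb

theorem cons_mono (hZ : IsB n Z) (hZ' : IsB n Z') (hp : Psef (Z' - Z)) (hb : ∀ i, Nef (b i)) :
    I (n + 1) K (Fin.cons Z b) ≤ I (n + 1) K (Fin.cons Z' b) := by
  rw [← sub_nonneg, ← h.cons_sub hK hZ' hZ fun i => (hb i).car]
  exact h.cons_nn hK (IsB.sub hZ' hZ) hp hb

/-- the exceptional part does not count -/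
theorem cons_trace (hΛ : Smp Λ) (hb : ∀ i, Dsc Λ (b i)) (e : ∀ P, On n Λ P → Z P = Z' P) :
    I (n + 1) K (Fin.cons Z b) = I (n + 1) K (Fin.cons Z' b) :=
  finsum_congr fun P => by
    change Z P * cf P b = Z' P * cf P b
    by_cases k : On n Λ P
    · rw [e P k]
    · rw [h.exc hK k hΛ hb, mul_zero, mul_zero]

theorem cf_hull {P : Pl K} {η : BD K} (hΛ : Smp Λ) (hb : ∀ i, Dsc Λ (b i)) (e : Hull n Λ P.δ η) :
    cf P b = I (n + 1) K (Fin.cons η b) := by
  rw [← I_δ, h.cons_trace hK hΛ hb fun Q k => (e.2 Q k).symm]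

end

theorem pos (hK : FF K n) {b : Fin n → BD K} (hb : ∀ i, Nef (b i) ∧ Big (b i)) : 0 < I n K b := by
  obtain ⟨s, -, k⟩ := h.big n K hK
  choose ε a c using fun i => (hb i).2 s
  refine lt_of_lt_of_le ?_ ((h.row n K hK).mono (a := fun i => ε i • mx s)
    (fun i => (nef_mx s).smul (a i).le) (fun i => (hb i).1) fun i => (c i).psef)
  rw [(h.row n K hK).ml.smul_all ε (fun _ => mx s) fun _ => mx_mem_Car s]
  exact mul_pos (Finset.prod_pos fun i _ => a i) k

theorem vol_pos (hK : FF K n) (a : Nef β) (b : Big β) : 0 < vol n β := h.pos hK fun _ => ⟨a, b⟩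

theorem vol_nonneg (hK : FF K n) (a : Nef β) : 0 ≤ vol n β := (h.row n K hK).nef _ fun _ => a

theorem vol_mono (hK : FF K n) (a : Nef β) (b : Nef γ) (c : Psef (γ - β)) : vol n β ≤ vol n γ :=
  (h.row n K hK).mono (fun _ => a) (fun _ => b) fun _ => c

theorem cons_pos (hK : FF K (n + 1)) {b : Fin n → BD K} (hZ : IsB n Z) (hp : Big Z)
    (hb : ∀ i, Nef (b i) ∧ Big (b i)) : 0 < I (n + 1) K (Fin.cons Z b) := by
  obtain ⟨s, k, -⟩ := h.big _ K hK
  obtain ⟨ε, a, c⟩ := hp s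
  exact (h.pos hK (cons_mem (p := fun β => Nef β ∧ Big β) ⟨(nef_mx s).smul a.le, k.smul a⟩
    hb)).trans_le (h.cons_mono hK (IsB.smul (h.isb n K hK _ (mx_mem_Car s)) ε) hZ c.psef
      fun i => (hb i).1)

omit h in
theorem cons_int' {b : Fin n → BD K} (hZ : IsZ Z) (hb : ∀ P : Pl K, ∃ z : ℤ, cf P b = z) :
    ∃ z : ℤ, I (n + 1) K (Fin.cons Z b) = z :=
  finsum_induction (fun x : ℝ => ∃ z : ℤ, x = z) ⟨0, Int.cast_zero.symm⟩
    (fun _ _ ⟨x, a⟩ ⟨y, c⟩ => ⟨x + y, by rw [a, c, Int.cast_add]⟩) fun P =>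
      let ⟨x, a⟩ := hZ P
      let ⟨y, c⟩ := hb P
      ⟨x * y, by rw [Int.cast_mul, ← a, ← c]; rfl⟩

theorem int (n : ℕ) : ∀ (K : Type) [Field K] [Algebra ℂ K], FF K n → ∀ b : Fin n → BD K,
    (∀ i, b i ∈ CarZ K) → ∃ z : ℤ, I n K b = z := by
  induction n with
  | zero => exact fun _ _ _ _ _ _ => ⟨1, Int.cast_one.symm⟩
  | succ n ih =>
    exact fun K _ _ hK b hb => cons_int' (b := fun i => b i.succ) (CarZ.int (hb 0)) fun P =>
      ih _ (h.rsd n K hK P) _ fun i => h.res_carZ hK P (hb _)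

theorem cf_int (hK : FF K (n + 1)) (P : Pl K) {b : Fin n → BD K} (hb : ∀ i, b i ∈ CarZ K) :
    ∃ z : ℤ, cf P b = z := h.int n _ (h.rsd n K hK P) _ fun i => h.res_carZ hK P (hb i)

theorem swap (hK : FF K (n + 2)) {c : Fin n → BD K} (a : β ∈ Car K) (b : γ ∈ Car K)
    (hc : ∀ i, c i ∈ Car K) : I (n + 2) K (Fin.cons β (Fin.cons γ c)) =
      I (n + 2) K (Fin.cons γ (Fin.cons β c)) := by
  rw [← h.perm _ K hK _ (Equiv.swap 0 (Fin.succ 0)) (cons_mem a (cons_mem b hc))]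
  congr 1
  funext i
  induction i using Fin.cases with
  | zero => simp
  | succ i =>
    induction i using Fin.cases with
    | zero => simp
    | succ i =>
      rw [comp_apply, Equiv.swap_apply_of_ne_of_ne (Fin.succ_ne_zero _)
        (Fin.succ_inj.ne.2 (Fin.succ_ne_zero i))]
      rfl

theorem front (hK : FF K (n + 1)) {b : Fin (n + 1) → BD K} (hb : ∀ j, b j ∈ Car K)
    (i : Fin (n + 1)) :
    I (n + 1) K b = I (n + 1) K (Fin.cons (b i) fun j => b (Equiv.swap 0 i j.succ)) := by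
  rw [← h.perm _ K hK b (Equiv.swap 0 i) hb, I_succ, I_cons]
  simp only [comp_apply, Equiv.swap_apply_left]

omit h in
theorem car_le_span (a : β ∈ Car K) : β ∈ Submodule.span ℝ {N : BD K | Nef N} := by
  obtain ⟨x, y, u, v, rfl⟩ := mem_Car_iff_sub.1 a
  exact sub_mem (Submodule.subset_span u.nef) (Submodule.subset_span v.nef)

theorem cons_num (hK : FF K (n + 1)) (a : Num β) {b : Fin n → BD K} (hb : ∀ i, b i ∈ Car K) :
    I (n + 1) K (Fin.cons β b) = 0 := by
  have e := h.isb n K hK _ a.car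
  refine (h.tail_ml hK e).zero_of_span (S := {N | Nef N}) (fun _ k => k.car)
    (fun c k => le_antisymm ?_ (h.cons_nn hK e a.1.psef k)) b fun i => car_le_span (hb i)
  have := h.cons_nn hK (IsB.neg e) a.2.psef k
  rwa [← neg_one_smul ℝ β, cons_smul, neg_one_mul, neg_nonneg] at this

/-- numerically trivial classes kill all numbers -/
theorem num_zero (hK : FF K n) {b : Fin n → BD K} (hb : ∀ i, b i ∈ Car K) (i : Fin n)
    (hi : Num (b i)) : I n K b = 0 := by
  cases n with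
  | zero => exact i.elim0
  | succ n => rw [h.front hK hb i, h.cons_num hK hi fun _ => hb _]

theorem nef_of_zero (u : HUL) (k : KLM) (n : ℕ) : ∀ (K : Type) [Field K] [Algebra ℂ K],
    FF K (n + 1) → ∀ β ∈ Car K, (∀ γ : Fin n → BD K, (∀ i, γ i ∈ Car K) →
      I (n + 1) K (Fin.cons β γ) = 0) → Nef β := by
  induction n with
  | zero =>
    exact fun K _ _ hK β a e => (Cv.nef1 hK β (h.isb 0 K hK β a)).2.1.2
      (e ![] fun i => i.elim0).ge
  | succ n ih =>
    intro K _ _ hK β a e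
    refine k n K hK β a fun P => ih _ (h.rsd _ K hK P) _ (res_car _ _) fun γ hγ => ?_
    choose c c1 c2 using fun i => h.res_sur hK P (hγ i)
    obtain ⟨Λ, η, x, y, z⟩ := u _ K hK P (range (Fin.cons β c : Fin (n + 1) → BD K))
      (finite_range _) (by rintro _ ⟨i, rfl⟩; exact cons_mem a c1 i)
    have := h.cf_hull hK x (fun i => y _ ⟨i, rfl⟩) z
    rw [h.swap hK (Dsc.car z.1) a c1, e _ (cons_mem (Dsc.car z.1) c1)] at this
    rw [← this, cf]
    congr 1
    funext i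
    induction i using Fin.cases with
    | zero => rfl
    | succ i => exact (c2 i).symm

theorem num_iff (u : HUL) (k : KLM) (hK : FF K (n + 1)) (a : β ∈ Car K) : Num β ↔
    ∀ γ : Fin n → BD K, (∀ i, γ i ∈ Car K) → I (n + 1) K (Fin.cons β γ) = 0 :=
  ⟨fun e _ c => h.cons_num hK e c, fun e => ⟨h.nef_of_zero u k n K hK β a e,
    h.nef_of_zero u k n K hK _ (neg_mem a) fun γ c => by
      rw [← neg_one_smul ℝ β, cons_smul, e γ c, mul_zero]⟩⟩

/-- the criterion of Kleiman from the effective case -/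
theorem klm (k : NK) (cl : NCL) (bv : BIGV) : KLM := fun n K _ _ hK β a e => by
  obtain ⟨s₀, b₀, -⟩ := h.big _ K hK
  obtain ⟨u, -, u1, -⟩ := Car.exists_mx a
  obtain ⟨s, -, es⟩ := exists_mx_add s₀ u
  have hH := mx_mem_Car s
  have bH : Big (mx s) := es ▸ b₀.add_smp (smp_mx u)
  have c : ∀ t : ℝ, β + t • mx s ∈ Car K := fun t => add_mem a (Submodule.smul_mem _ t hH)
  have r : ∀ t : ℝ, ∀ P, res P (β + t • mx s) = res P β + t • res P (mx s) := fun t P => by
    rw [h.add _ K hK P β a _ (Submodule.smul_mem _ t hH), h.smul _ K hK P t _ hH]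
  have rn : ∀ t : ℝ, 0 ≤ t → ∀ P, Nef (res P (β + t • mx s)) := fun t ht P =>
    r t P ▸ (e P).add ((h.res_nef hK P (nef_mx s)).smul ht)
  have up : ∀ t t' : ℝ, t ≤ t' → Nef (β + t • mx s) → Nef (β + t' • mx s) := fun t t' x y => by
    simpa [sub_smul] using y.add ((nef_mx s).smul (sub_nonneg.2 x))
  set T := {t : ℝ | 0 ≤ t ∧ Nef (β + t • mx s)}
  have T1 : (1 : ℝ) ∈ T := ⟨zero_le_one, by
    rw [one_smul, es, add_comm, add_assoc]; exact (nef_mx _).add u1.nef⟩
  have Tb : BddBelow T := ⟨0, fun _ x => x.1⟩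
  have t0 : 0 ≤ sInf T := le_csInf ⟨1, T1⟩ fun _ x => x.1
  have L : Nef (β + sInf T • mx s) := cl _ K hK _ _ hH fun ε x => by
    obtain ⟨t, y, z⟩ := exists_lt_of_csInf_lt ⟨1, T1⟩ (lt_add_of_pos_right _ x)
    rw [add_assoc, ← add_smul]
    exact up _ _ z.le y.2
  rcases t0.eq_or_lt with z | z
  · simpa [← z] using L
  set t := sInf T
  have cL : ∀ _ : Fin n, β + t • mx s ∈ Car K := fun _ => c t
  have v : 0 < vol (n + 2) (β + t • mx s) := by
    have i := h.isb _ K hK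
    have p1 : 0 ≤ I (n + 2) K (Fin.cons (β + t • mx s) (Fin.cons β fun _ => β + t • mx s)) :=
      h.cons_nn' hK (h.rows hK) (i _ (c t)) L.psef (cons_mem a cL) fun P =>
        (h.rows hK P).nef _ (Fin.cases (e P) fun _ => rn t t0 P)
    have p2 : I (n + 2) K (Fin.cons (mx s) fun _ => t • mx s) ≤
        I (n + 2) K (Fin.cons (mx s) fun _ => β + t • mx s) := by
      obtain ⟨G, g⟩ := eff_mx s
      have d : ∀ _ : Fin (n + 1), t • mx s ∈ Car K := fun _ => Submodule.smul_mem _ t hH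
      rw [← h.cons_congr hK (i _ hH) g.2 d, ← h.cons_congr hK (i _ hH) g.2 fun _ => c t]
      refine finsum_le_finsum' (h.fin hK (i _ (g.car hH)) d)
        (h.fin hK (i _ (g.car hH)) fun _ => c t) fun P => mul_le_mul_of_nonneg_left ?_ (g.1 P)
      refine (h.rows hK P).mono (fun _ => h.res_nef hK P ((nef_mx s).smul t0))
        (fun _ => rn t t0 P) fun _ => ?_
      change Psef (res P (β + t • mx s) - res P (t • mx s))
      rw [← h.res_sub hK P (c t) (d 0), add_sub_cancel_right]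
      exact (e P).psef
    have p3 := h.cons_pos hK (b := fun _ => t • mx s) (i _ hH) bH fun _ =>
      ⟨(nef_mx s).smul t0, bH.smul z⟩
    rw [h.swap hK (c t) a cL] at p1
    rw [vol_succ, h.cons_add hK (i _ a) (IsB.smul (i _ hH) t) fun _ => c t, cons_smul]
    exact add_pos_of_nonneg_of_pos p1 (mul_pos z (p3.trans_le p2))
  obtain ⟨ε, e0, e1⟩ := (bv _ K hK _ L v).opn hH
  have m : 0 < min ε t := lt_min e0 z
  have w := e1 (-min ε t) (by rw [abs_neg, abs_of_pos m]; exact min_le_left _ _)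
  rw [add_assoc, ← add_smul] at w
  have q : 0 ≤ t + -min ε t := by linarith [min_le_right ε t]
  have := csInf_le Tb ⟨q, k _ K hK _ (c _) w.eff (rn _ q)⟩
  linarith

/-- **INT** -/
theorem int_of (u : HUL) (k : KLM) : INT where
  fin _ _ _ _ hK _ _ a b := h.fin hK a b
  add n K _ _ hK β i a b x y z c d := by
    cases n with
    | zero => exact i.elim0
    | succ n =>
      have c' : ∀ j : Fin n, β j.succ ∈ Car K := fun j => c j.succ (Nat.succ_ne_zero _)
      induction i using Fin.cases with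
      | zero => simp only [I_upd_zero]; exact h.cons_add hK x y c'
      | succ i =>
        simp only [I_upd_succ]
        exact (h.tail_ml hK (z 0)).add _ i a b c' (d (Nat.succ_ne_zero _)).1
          (d (Nat.succ_ne_zero _)).2
  smul n K _ _ hK β i t a c d := by
    cases n with
    | zero => exact i.elim0
    | succ n =>
      induction i using Fin.cases with
      | zero => simp only [I_upd_zero, cons_smul]
      | succ i =>
        simp only [I_upd_succ, I_cons, (h.cf_ml hK _).smul _ i t a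
          (fun j => c j.succ (Nat.succ_ne_zero _)) (d (Nat.succ_ne_zero _)), mul_left_comm _ t]
        exact (mul_finsum _ _).symm
  perm := h.perm
  perm' _ _ _ _ hK _ _ σ _ := finsum_congr fun P => congrArg _ (h.cf_perm hK P σ)
  prn n K _ _ hK β i c p := by
    cases n with
    | zero => exact i.elim0
    | succ n =>
      induction i using Fin.cases with
      | zero => exact h.cons_prn hK p fun j => c j.succ (Nat.succ_ne_zero _)
      | succ i =>
        exact finsum_eq_zero_of_forall_eq_zero fun P =>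
          mul_eq_zero_of_right _ (h.cf_prn hK (b := fun j => β j.succ) P i p)
  nn _ _ _ _ hK _ _ a b c := h.cons_nn hK b a c
  pos _ _ _ _ hK _ _ a b c := h.cons_pos hK b a c
  int _ _ _ _ hK _ _ a _ c := cons_int' a fun P => h.cf_int hK P c
  exc _ _ _ _ hK _ _ _ a b c := h.exc hK b a c
  num _ _ _ _ hK _ a := h.num_iff u k hK a
  nef1 _ _ _ hK := Cv.nef1 hK
  nef := k

end Hy

end Vale.Agent.P287D.In
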