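import Vale.Agent.P287D.In.Vol
import Vale.Agent.P287D.I.Kl
import Vale.Agent.P287D.Kv.K2

/-!
# P287D: effective classes which are nef on all prime divisors are nef
-/

set_option linter.all false

open Set
open Vale.Agent.P277Z Vale.Agent.P277Z.FI

noncomputable section

namespace Vale.Agent.P287D.Ba.Vl

/-- nef classes descend to nef divisors of the given smooth model -/
def DSC : Prop := ∀ (n : ℕ) (K : Type) [Field K] [Algebra ℂ K] (M : Mdl n 0 K), M.Proj →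
  ∀ D : Div K, M.Dv D → Nef (bar M D) → M.Nef D

variable {n : ℕ} {K : Type} [Field K] [Algebra ℂ K]

/-- only the components of one member matter -/
theorem nef_of_rep (d : DSC) (hK : FF K (n + 1)) {β G : BD K} (hβ : β ∈ Car K) (hG : Rep β G)
    (h : ∀ P : Pl K, G P ≠ 0 → Nef (res P β)) : Nef β := by
  obtain ⟨M₀, h₀⟩ := Bm.exists_mdl hK
  obtain ⟨M, -, U, D, hM, -, hU, -, -, -, k⟩ := comF h₀ (β := ![β, G])
    (Fin.cases hβ (Fin.cases (hG.car hβ) fun i => i.elim0)) finite_empty finite_empty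
  obtain rfl : β = bar M (D 0) := (k 0).2.1
  obtain rfl : G = bar M (D 1) := (k 1).2.1
  refine nef_bar hM (I.nak (Kv.kv n) (Kv.kv (n + 1)) (pc hM) (E := D 1)
    ⟨nonneg_of_bar hM (k 1).1 hG.1, (prn_iff hM (dv_sub (k 1).1 (k 0).1)).1
      (map_sub (bar M) _ _ ▸ hG.2)⟩ fun Q hQ => ?_)
  have hs : M.Snc {Q} := snc_mono hU (singleton_subset_iff.2 ((k 1).2.2.1 hQ))
  have hp := hs.1 Q rfl
  obtain ⟨P, rfl⟩ := Bm.pl_of_pr hM hp
  obtain ⟨S, s, hS, e, hR⟩ := Bm.sub hM P hs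
  refine ⟨hs, Bm.subM hM hp s hS hR, d n _ S hS _ (dv_rs _ _) ?_⟩
  rw [← res_bar' hM hS e hR hp]
  exact h P (bar_pr hM hp (D 1) ▸ Finsupp.mem_support_iff.1 hQ)

theorem nk_of (d : DSC) : In.NK := fun _ _ _ _ hK _ a ⟨_, b⟩ c =>
  nef_of_rep d hK a b fun P _ => c P

end Vale.Agent.P287D.Ba.Vl
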