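import Vale.Agent.P287D.In.Desc
import Vale.Agent.P287D.In.Nk
import Vale.Agent.P287D.Ba.Mod
import Vale.Agent.P287D.Ba.Hy

/-!
# P287D: the row of the intersection numbers, without hypotheses
-/

set_option linter.all false

noncomputable section

namespace Vale.Agent.P287D

namespace In

theorem dsc : Ba.Vl.DSC := fun _ _ _ _ _ hM _ _ => nef_desc hM

theorem nk : NK := Ba.Vl.nk_of dsc

theorem hul : HUL := hul_of Ba.mod

/-- the criterion of Kleiman -/
theorem klm : KLM := hy.klm nk ncl Ba.Vl.bigv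

variable {n : ℕ} {K : Type} [Field K] [Algebra ℂ K] {β γ G : BD K}

theorem nef_of_rep (hK : FF K (n + 1)) (hβ : β ∈ Car K) (hG : Rep β G)
    (h : ∀ P : Pl K, G P ≠ 0 → Nef (res P β)) : Nef β := Ba.Vl.nef_of_rep dsc hK hβ hG h

theorem nef_closed (hK : FF K n) (hγ : γ ∈ Car K) (h : ∀ ε : ℝ, 0 < ε → Nef (β + ε • γ)) :
    Nef β := ncl n K hK β γ hγ h

/-- the nef cone is closed -/
theorem nef_of_lim (hK : FF K n) (hγ : γ ∈ Car K)
    (h : ∀ η : ℝ, 0 < η → ∃ t : ℝ, |t| ≤ η ∧ Nef (β + t • γ)) : Nef β := by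
  obtain ⟨s, -, a, b⟩ := Car.exists_mx hγ
  refine nef_closed hK (mx_mem_Car s) fun ε e => ?_
  obtain ⟨t, ht, k⟩ := h ε e
  have y := (nef_mx s).smul (sub_nonneg.2 ht)
  rcases le_total 0 t with r | r
  · have := k.add (y.add (b.nef.smul r))
    rwa [abs_of_nonneg r, show β + t • γ + ((ε - t) • mx s + t • (mx s - γ)) = β + ε • mx s by
      module] at this
  · have := k.add (y.add (a.nef.smul (neg_nonneg.2 r)))
    rwa [abs_of_nonpos r, show β + t • γ + ((ε - -t) • mx s + -t • (mx s + γ)) = β + ε • mx s by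
      module] at this

/-- on a surface a class is nef if it is non negative on all curves -/
theorem nef_two (hK : FF K 2) (hβ : β ∈ Car K) (h : ∀ P : Pl K, 0 ≤ I2 P.δ β) : Nef β :=
  klm 0 K hK β hβ fun P => (Cv.nef1 (hy.rsd 1 K hK P) _ (hy.isb 0 _ (hy.rsd 1 K hK P) _
    (res_car P β))).2.1.2 (by
      have := h P
      rw [show I2 P.δ β = cf P ![β] from I_δ P ![β]] at this
      exact this.trans_eq (congrArg (I 1 P.κ) (funext fun i => by fin_cases i; rfl)))

end In

/-- **INT** -/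
theorem int' : INT := In.hy.int_of In.hul In.klm

end Vale.Agent.P287D
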