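import Vale.Agent.P287D.Ba.Pos
import Vale.Agent.P287D.Ba.Nb
import Vale.Agent.P287D.Ba.Cn
import Vale.Agent.P287D.Bm.Va
import Vale.Agent.P287D.I.Kl
import Vale.Agent.P287D.Kv.K2
import Vale.Agent.P287D.In.Int

/-!
# P287D: nefness descends to smooth models; the nef cone is closed
-/

set_option linter.all false

open Set Filter Topology
open Vale.Agent.P297 (Place)
open Vale.Agent.P297Z.Pl
open Vale.Agent.P277Z Vale.Agent.P277Z.FI
open Vale.Agent.P277Z.Lift (LG)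
open Vale.Agent.P277Z.Kv (Ls)

noncomputable section

namespace Vale.Agent.P287D.In

export Vale.Agent.P277Z (Div)

open Ba

variable {n : ℕ} {K : Type} [Field K] [Algebra ℂ K] {M M' : Mdl n 0 K} {D L : Div K} {t : K}
  {x : M.F}

theorem bar_lg (hM : M.Proj) (h : LG M x D t) {P : Pl K} (hP : M.Ct x P.toPlace) :
    bar M D P = P.ord t := by
  rw [bar_loc hM hP (E := M.div t) fun Q hQ => by
    rw [div_apply (hloc hM) t ⟨x, hQ⟩, h.2 Q hQ], bar_div hM]
  rfl

theorem pull_bar (hM : M.Proj) (hM' : M'.Proj) (m : Mod M' M) {P : Pl K} (hP : M'.Pr P.toPlace)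
    (D : Div K) : M.pull M' D P.toPlace = bar M D P := by
  rw [← bar_pull hM hM' m, bar_pr hM' hP]

/-- a system with the base locus `x` -/
theorem exists_base (hM : M.Proj) (x : M.F) : ∃ (H : Div K) (s : Finset K), M.Dv H ∧ IsInt H ∧
    (∀ f ∈ s, f ∈ M.H0 H ∧ ¬ LG M x (-H) f) ∧ (∀ y, y ≠ x → ∃ f ∈ s, LG M y (-H) f) ∧
    ((∃ Q, M.Pr Q) → Nz s) := by
  classical
  have hL := hloc hM
  obtain ⟨u, hu⟩ := Bm.exists_va hM
  have gen : ∀ y, ∃ g ∈ u, LG M y (-sys M u) g ∧ ∀ a ∈ u, a / g ∈ M.O y := fun y => by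
    obtain ⟨g, g1, g2, g3⟩ := prin_free hM hu.prin y
    exact ⟨g, g1, ⟨g2, fun R hR => eq_neg_of_add_eq_zero_left (g3 R hR)⟩,
      fun a ha => Bm.div_of_free hL g2 g3 (mem_sys hM ha)⟩
  have unit : ∀ {y f g}, LG M y (-sys M u) g → f / g ∈ M.O y → M.val (f / g) y ≠ 0 →
      LG M y (-sys M u) f := fun {y f g} a b c => by
    have f0 : f / g ≠ 0 := fun e => c (by rw [e, M.val_zero])
    refine ⟨fun e => f0 (by rw [e, zero_div]), fun R hR => ?_⟩
    have := (ord_eq_zero_iff R f0).2 ⟨ct_of_on hR _ b, ct_of_on hR _ (hL.inv y _ b c)⟩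
    rw [ord_div R (fun e => f0 (by rw [e, zero_div])) a.1, sub_eq_zero] at this
    rw [this, a.2 R hR]
  obtain ⟨g, g1, g2, g3⟩ := gen x
  set c : K → K := fun a => algebraMap ℂ K (M.val (a / g) x) with hc
  have dq : ∀ a, (a - c a * g) / g = a / g - c a := fun a => by
    rw [sub_div, mul_div_cancel_right₀ _ g2.1]
  have cm : ∀ a y, c a ∈ M.O y := fun a y => (M.O y).algebraMap_mem _
  refine ⟨sys M u, u.image fun a => a - c a * g, dv_sys u, int_sys hM u, fun f hf => ?_,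
    fun y hy => ?_, fun ⟨Q, hQ⟩ => ?_⟩
  · obtain ⟨a, ha, rfl⟩ := Finset.mem_image.1 hf
    refine ⟨sub_mem (mem_sys hM ha) ((M.H0 _).smul_mem ⟨c a, algebraMap_mem _ _⟩ (mem_sys hM g1)),
      fun k => (Lb.unit_of hL (div_ne_zero k.1 g2.1) (x := x) fun R hR => ?_).2 ?_⟩
    · rw [ord_div R k.1 g2.1, Int.cast_inj.1 ((k.2 R hR).trans (g2.2 R hR).symm), sub_self]
    · rw [dq, M.val_sub_at (g3 a ha) (cm a x), M.val_const, sub_self]
  · by_contra! k
    obtain ⟨g', a1, a2, a3⟩ := gen y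
    have z : ∀ a ∈ u, M.val (a / g') y = M.val (a / g) x * M.val (g / g') y := fun a ha => by
      have e : (a - c a * g) / g' = a / g' - c a * (g / g') := by rw [sub_div, mul_div_assoc]
      have m := mul_mem (cm a y) (a3 g g1)
      by_contra b
      refine k _ (Finset.mem_image_of_mem _ ha) (unit a2 (e ▸ sub_mem (a3 a ha) m) ?_)
      rwa [e, M.val_sub_at (a3 a ha) m, M.val_mul_at (cm a y) (a3 g g1), M.val_const, sub_ne_zero]
    have v : M.val (g / g') y ≠ 0 := fun e => by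
      have := z g' a1
      rw [e, mul_zero, div_self a2.1, M.val_one] at this
      exact one_ne_zero this
    have i := hL.inv y _ (a3 g g1) v
    have b : ∀ a ∈ u, a / g ∈ M.O y := fun a ha => by
      have := mul_mem (a3 a ha) i
      rwa [inv_div, div_mul_div_cancel₀ a2.1] at this
    have w : ∀ f ∈ Bm.Chr u g, M.val f x = M.val f y := fun f hf => by
      induction hf using Algebra.adjoin_induction with
      | mem _ h =>
        obtain ⟨a, ha, rfl⟩ := h
        refine mul_right_cancel₀ v ?_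
        rw [← z a ha, ← M.val_mul_at (b a ha) (a3 g g1), div_mul_div_cancel₀ g2.1]
      | algebraMap r => rw [M.val_const, M.val_const]
      | add p q hp hq h1 h2 =>
        rw [M.val_add_at (Bm.chr_le g3 hp) (Bm.chr_le g3 hq),
          M.val_add_at (Bm.chr_le b hp) (Bm.chr_le b hq), h1, h2]
      | mul p q hp hq h1 h2 =>
        rw [M.val_mul_at (Bm.chr_le g3 hp) (Bm.chr_le g3 hq),
          M.val_mul_at (Bm.chr_le b hp) (Bm.chr_le b hq), h1, h2]
    obtain ⟨f, f1, f2, f3⟩ := hL.sep x y hy.symm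
    obtain ⟨p, p1, p2, p3⟩ := hu.loc x g g1 g2.1 g3 f f1
    have := w _ p3
    rw [M.val_mul_at f1 (Bm.chr_le g3 p1), M.val_mul_at f2 (Bm.chr_le b p1), ← w p p1] at this
    exact f3 (mul_right_cancel₀ p2 this)
  · by_contra k
    have z : Bm.Chr u g ≤ ⊥ := Algebra.adjoin_le (by
      rintro _ ⟨a, ha, rfl⟩
      have : a - c a * g = 0 := by_contra fun e => k ⟨_, Finset.mem_image_of_mem _ ha, e⟩
      have e := dq a
      rw [this, zero_div, eq_comm, sub_eq_zero] at e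
      exact ⟨_, e.symm⟩)
    obtain ⟨P, rfl⟩ := Bm.pl_of_pr hM hQ
    have o : ∀ f ∈ M.O x, P.ord f = 0 := fun f hf => by
      obtain ⟨p, p1, p2, p3⟩ := hu.loc x g g1 g2.1 g3 f hf
      obtain ⟨r, rfl⟩ := z p1
      obtain ⟨r', e⟩ := z p3
      have r0 : (Algebra.ofId ℂ K).toRingHom r ≠ 0 := fun e => p2 (by rw [e, M.val_zero])
      rw [eq_div_of_mul_eq r0 e.symm]
      exact (map_div₀ (algebraMap ℂ K) r' r ▸ P.ord_const (r' / r) :)
    obtain ⟨b, b1, b2, b3⟩ := hL.frac x P.t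
    have := o _ b3
    rw [ord_mul _ b2 P.t_ne, o b b1, P.ord_t] at this
    exact absurd this (by decide)

/-- a uniform criterion for global generation at a point -/
theorem free_of_nb (hM : M.Proj) (x : M.F) : ∃ H₀ : Div K, ∀ L, M.Dv L → IsInt L →
    Nef (bar M (L - H₀)) → Big (bar M (L - H₀)) → M.Free L x := by
  classical
  have hL := hloc hM
  by_cases hp : ∃ Q, M.Pr Q
  swap
  · exact ⟨0, fun L _ _ _ _ => ⟨1, Or.inr fun Q hQ => absurd ⟨Q, hQ⟩ hp, one_ne_zero,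
      fun Q hQ => absurd ⟨Q, x, hQ⟩ hp⟩⟩
  obtain ⟨H, s, H1, H2, s1, s2, s3⟩ := exists_base hM x
  have le := Ba.mx_le hM (s3 hp) fun f hf => (s1 f hf).1
  have off : ∀ y, y ≠ x → ∀ P : Pl K, M.Ct y P.toPlace → bar M H P = mx s P := fun y hy P hP => by
    obtain ⟨f, f1, f2⟩ := s2 y hy
    refine le_antisymm ?_ (le P)
    have := bar_lg hM f2 hP
    rw [map_neg, Pi.neg_apply, neg_eq_iff_eq_neg] at this
    rw [this, mx_apply]
    exact_mod_cast P.le_mz f1 f2.1
  obtain ⟨E, hE⟩ : ∃ E, mx s E < bar M H E := by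
    by_contra! k
    obtain ⟨f, f1, f2, f3⟩ := Nb.free_of_mx hM H1 (s3 hp) (le_antisymm le k) x
    exact (s1 f f1).2 ⟨f2, fun R hR => eq_neg_of_add_eq_zero_left (f3 R hR)⟩
  obtain ⟨N, hN⟩ := exists_nat_gt ((cn K n E - bar M (KM M) E) / (bar M H E - mx s E))
  rw [div_lt_iff₀ (sub_pos.2 hE)] at hN
  refine ⟨KM M + (N : ℝ) • H, fun L L1 L2 a b => ?_⟩
  obtain ⟨M', m, U, D, G, hM', u1, u2, -, u3, -, u4, d1, d2, -, -, -, g1, g2, g3⟩ :=
    Nb.nb hM a b (finite_singleton (mx s)) (by rintro _ rfl; exact mx_mem_Car s)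
      (finite_singleton E) finite_empty
  obtain ⟨S, S1, S2, -, S3, S4⟩ := u4 _ rfl
  have hB := hbir hM hM' m
  have hL' := hloc hM'
  obtain ⟨r1, r2⟩ := KM_mod hM hM' m
  set R := KM M' - M.pull M' (KM M) with hR
  set F := M.pull M' H - S with hF
  have Fp : ∀ {P : Pl K}, M'.Pr P.toPlace → F P.toPlace = bar M H P - mx s P := fun h => by
    rw [hF, Finsupp.sub_apply, pull_bar hM hM' m h, S2, bar_pr hM' h]
  have F0 : ∀ Q, M'.Pr Q → 0 ≤ F Q := (forall_pr hM').2 fun P h => Fp h ▸ sub_nonneg.2 (le P)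
  have F1 : ∀ y Q, pt m y ≠ x → M'.On y Q → F Q = 0 := fun y Q hy h => by
    obtain ⟨P, rfl⟩ := Bm.pl_of_pr hM' ⟨y, h⟩
    rw [Fp ⟨y, h⟩, off _ hy P (ct_pt hB h), sub_self]
  set W := M.pull M' L + R - (N : ℝ) • F with hW
  have iW : IsInt W := IsInt.sub (IsInt.add (pull_int hB L2) (IsInt.sub (KM_int hM')
    (pull_int hB (KM_int hM)))) (IsInt.nsmul (IsInt.sub (pull_int hB H2) (S3 (mx_mem_CarZ s))) N)
  obtain ⟨ε, e0, e1, e2⟩ : ∃ ε : ℝ, 0 < ε ∧ ε ≤ 1 ∧ ∀ Q, ε * G Q < 1 := by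
    have c : 0 ≤ ∑ Q ∈ G.support, G Q := Finset.sum_nonneg fun Q _ => g1 Q
    refine ⟨(1 + ∑ Q ∈ G.support, G Q)⁻¹, by positivity, inv_le_one_of_one_le₀ (by linarith),
      fun Q => ?_⟩
    rw [inv_mul_lt_iff₀ (by positivity), mul_one]
    by_cases k : Q ∈ G.support
    · linarith [Finset.single_le_sum (f := G) (fun Q _ => g1 Q) k]
    · rw [Finsupp.notMem_support_iff.1 k]; linarith
  have lc : ∀ y f, Kv.Lc M' y (W - ε • G) f ↔ Ls M' y W f := fun y f =>
    or_congr_right (forall₂_congr fun Q _ => by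
      obtain ⟨k, hk⟩ := iW Q
      have a1 := e2 Q
      have a2 := mul_nonneg e0.le (g1 Q)
      rw [Finsupp.sub_apply, Finsupp.smul_apply, smul_eq_mul, hk]
      refine ⟨fun h => ?_, fun h => by linarith⟩
      have : (-1 : ℝ) < Q.ord f + k := by linarith
      exact_mod_cast (by exact_mod_cast this : (0 : ℤ) ≤ Q.ord f + k))
  have hγ : LG M x (-L) (Lift.eqD M x L)⁻¹ := ⟨inv_ne_zero (Lift.lg_eqD (x := x) hL L2).1,
    fun R hR => by
      rw [ord_inv, Int.cast_neg, (Lift.lg_eqD (x := x) hL L2).2 R hR, Finsupp.neg_apply]⟩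
  set γ := (Lift.eqD M x L)⁻¹
  have up : ∀ {y f}, LG M (pt m y) (-L) f → ∀ Q, M'.On y Q → (Q.ord f : ℝ) + M.pull M' L Q = 0 :=
    fun {y f} h Q hQ => by
      obtain ⟨P, rfl⟩ := Bm.pl_of_pr hM' ⟨y, hQ⟩
      rw [pull_bar hM hM' m ⟨y, hQ⟩, ← bar_lg hM h (ct_pt hB hQ), map_neg, Pi.neg_apply,
        neg_add_cancel]
  have ct : ∀ y, ContinuousAt (pt m) y := fun y =>
    ((m.cont y y.2).comp continuous_subtype_val.continuousAt).codRestrict _
  obtain ⟨f, hf⟩ := Kv.kv n 0 K M' hM' (KM M') (W - ε • G) U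
    (fun y => if pt m y = x then γ else 0) ⟨KM_isCan hM', u1, u2⟩
    (fun Q hQ => by
      rw [Finsupp.sub_apply, Finsupp.smul_apply,
        Finsupp.notMem_support_iff.1 fun k => hQ (g2 k), smul_zero, sub_zero]
      exact iW Q)
    (by
      have := F5.amp_add_nef (g3 ε e0 e1) (F5.nef_smul (hpos hM') (S4 (nef_mx s)) N.cast_nonneg)
      rw [eq_pull hM hM' m d1 d2.symm, ← pl_apply hB, map_sub, map_add, map_smul] at this
      simp only [pl_apply] at this
      rwa [show W - ε • G - KM M' = M.pull M' L - (M.pull M' (KM M) + (N : ℝ) • M.pull M' H) -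
        ε • G + (N : ℝ) • S by rw [hW, hR, hF]; module])
    fun y => by
      simp only [lc]
      by_cases k : pt m y = x
      · filter_upwards [(ct y).eventually (k ▸ hγ.near hL)] with z hz
        rw [if_pos k]
        split_ifs with k'
        · rw [sub_self]; exact I.ls_zero
        · refine Or.inr fun Q hQ => ?_
          rw [sub_zero, hW, Finsupp.sub_apply, Finsupp.add_apply, Finsupp.smul_apply,
            F1 z Q k' hQ, smul_zero, sub_zero, ← add_assoc, up hz Q hQ, zero_add]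
          exact r1 Q
      · filter_upwards [(ct y).eventually_ne k] with z hz
        rw [if_neg k, if_neg hz, sub_self]
        exact I.ls_zero
  simp only [lc] at hf
  have wl : ∀ {y g}, Ls M' y W g → Ls M' y (M.pull M' L + R) g := fun h =>
    h.imp_right fun k Q hQ => (k Q hQ).trans (by
      rw [hW, Finsupp.sub_apply, Finsupp.smul_apply, smul_eq_mul]
      linarith [mul_nonneg (N.cast_nonneg (α := ℝ)) (F0 Q ⟨_, hQ⟩)])
  have f1 : f ∈ M.H0 L := (hB.sec L R f r2.le r1).1 (I.mem_of_ls fun y => by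
    have := wl (hf y)
    split_ifs at this with k
    · simpa using I.ls_add this (g := γ) (Or.inr fun Q hQ => by
        rw [Finsupp.add_apply, ← add_assoc, up (k ▸ hγ) Q hQ, zero_add]; exact r1 Q)
    · simpa using this)
  obtain ⟨y, hy⟩ := u2.1 _ (u3 E rfl)
  have yx : pt m y = x := by_contra fun k => by
    have := F1 y _ k hy
    rw [Fp ⟨y, hy⟩] at this
    exact (sub_pos.2 hE).ne' this
  have m1 := (Lift.lg_eqD (x := x) hL L2).mem hL f1
  refine F5.Mu.free_iff.2 ⟨f, f1, F5.Mu.lg_of_val hL L2 f1 fun v => ?_⟩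
  have e : (f - γ) * Lift.eqD M x L = f * Lift.eqD M x L - 1 := by
    rw [sub_mul, inv_mul_cancel₀ (Lift.lg_eqD (x := x) hL L2).1]
  have g0 : f - γ ≠ 0 := fun k => by
    rw [k, zero_mul, eq_comm, sub_eq_zero] at e
    rw [e, M.val_one] at v
    exact one_ne_zero v
  have l : LG M x (-L) (f - γ) := ⟨g0, fun Q hQ => by
    have i := hL.inv x _ (sub_mem m1 (one_mem _)) (by
      rw [M.val_sub_at m1 (one_mem _), v, M.val_one, zero_sub]; exact neg_ne_zero.2 one_ne_zero)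
    have t0 := (Lift.lg_eqD (x := x) hL L2)
    have := (ord_eq_zero_iff Q (e ▸ mul_ne_zero g0 t0.1)).2
      ⟨ct_of_on hQ _ (sub_mem m1 (one_mem _)), ct_of_on hQ _ i⟩
    rw [← e, ord_mul Q g0 t0.1, add_eq_zero_iff_eq_neg] at this
    rw [this, Int.cast_neg, t0.2 Q hQ, Finsupp.neg_apply]⟩
  have := (hf y).resolve_left (by rwa [if_pos yx]) _ hy
  rw [if_pos yx, hW, Finsupp.sub_apply, Finsupp.add_apply, Finsupp.smul_apply, smul_eq_mul,
    Fp ⟨y, hy⟩, ← disc_mod hM hM' ⟨y, hy⟩, ← bar_apply] at this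
  linarith [up (yx ▸ l) _ hy]

/-- **DESC** -/
theorem nef_desc (hM : M.Proj) (h : Nef (bar M D)) : M.Nef D := fun A hA => by
  classical
  have hP := hpos hM
  haveI : CompactSpace M.F := isCompact_iff_compactSpace.1 M.cpt
  rw [← hP.tr, ← F5.trl_apply, map_add, F5.trl_apply, F5.trl_apply]
  rw [← hP.tr] at hA
  rw [← bar_tr hM] at h
  have hD := F5.dv_tr (M := M) D
  generalize M.tr D = D at h hD
  generalize M.tr A = A at hA
  obtain ⟨H, hH⟩ := (pc hM).pol
  obtain ⟨p, p0, hp⟩ : ∃ p : ℕ, 0 < p ∧ M.Amp (A + (-(2 / p : ℝ)) • H) := by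
    have t : Tendsto (fun p : ℕ => -(2 / p : ℝ)) atTop (𝓝 0) := by
      simpa using (tendsto_const_div_atTop_nhds_zero_nat (2 : ℝ)).neg
    exact ((eventually_gt_atTop 0).and (t.eventually (F5.amp_ev hP hA H))).exists
  have p1 : (0 : ℝ) < p := Nat.cast_pos.2 p0
  obtain ⟨ε, e0, he⟩ := F5.amp_small hP (hP.smul H _ (inv_pos.2 p1) hH.amp) D.support.finite_toSet
  obtain ⟨q, hq⟩ := exists_nat_gt ε⁻¹
  have q1 : (0 : ℝ) < q := (inv_pos.2 e0).trans hq
  have pq : (0 : ℝ) < p * q := mul_pos p1 q1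
  set G : Div K := D.mapRange (fun c : ℝ => ((⌊(p : ℝ) * q * c⌋ : ℤ) : ℝ)) (by simp) with hG
  have G1 : (G.support : Set (Place K)) ⊆ D.support :=
    Finset.coe_subset.2 Finsupp.support_mapRange
  have G2 : ∀ Q, |((p * q : ℝ)⁻¹ • G - D) Q| ≤ ε := fun Q => by
    have a := Int.floor_le (p * q * D Q)
    have b := Int.lt_floor_add_one (p * q * D Q)
    have c : ((p * q : ℝ)⁻¹ • G - D) Q = (⌊p * q * D Q⌋ - p * q * D Q) / (p * q) := by
      simp only [hG, Finsupp.sub_apply, Finsupp.smul_apply, Finsupp.mapRange_apply, smul_eq_mul]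
      field_simp
    have d : 1 ≤ ε * (p * q) := by
      have : (1 : ℝ) ≤ p := by exact_mod_cast p0
      have k := (inv_lt_iff_one_lt_mul₀' e0).1 hq
      nlinarith [mul_pos e0 q1]
    rw [c, abs_div, abs_of_pos pq, div_le_iff₀ pq, abs_le]
    constructor <;> linarith
  have G3 : (((p * q : ℝ)⁻¹ • G - D).support : Set (Place K)) ⊆ D.support := fun Q hQ => by
    by_contra k
    have a := Finsupp.notMem_support_iff.1 k
    have b := Finsupp.notMem_support_iff.1 fun k' => k (G1 k')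
    simp [a, b] at hQ
  have B := hP.smul _ _ pq (he _ G3 G2)
  set L := (q : ℝ) • H + G with hL
  have L1 : M.Dv L := dv_add (FI.dv_smul hH.dv _) fun Q hQ => hD Q (G1 hQ)
  have L2 : IsInt L := IsInt.add (IsInt.nsmul hH.int q) fun Q => ⟨_, Finsupp.mapRange_apply⟩
  have fr : ∀ x, ∃ m : ℕ, 0 < m ∧ ∀ᶠ y in 𝓝 x, M.Free ((m : ℝ) • L) y := fun x => by
    obtain ⟨H₀, k⟩ := free_of_nb hM x
    obtain ⟨m, m0, m1⟩ := ((eventually_gt_atTop 0).and (F5.Dg.amp_ev hP B (-H₀))).exists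
    have e : bar M ((m : ℝ) • L - H₀) = (m * (p * q) : ℝ) • bar M D + bar M ((m : ℝ) •
        (p * q : ℝ) • ((p : ℝ)⁻¹ • H + ((p * q : ℝ)⁻¹ • G - D)) + -H₀) := by
      rw [← map_smul, ← map_add, hL]
      congr 1
      match_scalars <;> field_simp <;> ring
    have c := h.smul (c := m * (p * q)) (by positivity)
    obtain ⟨f, f1, f2⟩ := F5.Mu.free_iff.1 (k _ (FI.dv_smul L1 _) (IsInt.nsmul L2 m)
      (e ▸ c.add (smp_amp hM m1).nef) (e ▸ c.psef.add_big (big_amp hM m1)))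
    exact ⟨m, m0, (f2.near (hloc hM)).mono fun y hy => F5.Mu.free_iff.2 ⟨f, f1, hy⟩⟩
  choose m m0 m1 using fr
  obtain ⟨U, hU⟩ := CompactSpace.elim_nhds_subcover _ m1
  have r0 : (0 : ℝ) < (∏ x ∈ U, m x : ℕ) := Nat.cast_pos.2 (Finset.prod_pos fun x _ => m0 x)
  have k1 := F5.nef_smul hP (hP.free _ (IsInt.nsmul L2 (∏ x ∈ U, m x)) fun y => by
    obtain ⟨x, h1, h2⟩ := mem_iUnion₂.1 (hU.ge (mem_univ y))
    obtain ⟨c, hc⟩ := Finset.dvd_prod_of_mem m h1
    rw [hc, Nat.cast_mul, mul_comm, mul_smul]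
    exact F5.free_nsmul h2 c) (inv_pos.2 (mul_pos r0 pq)).le
  have k2 := he (-((p * q : ℝ)⁻¹ • G - D)) (by rwa [Finsupp.support_neg])
    fun Q => by rw [Finsupp.neg_apply, abs_neg]; exact G2 Q
  have := F5.amp_add_nef (hP.add _ _ hp k2) k1
  generalize ((∏ x ∈ U, m x : ℕ) : ℝ) = r at r0 this
  rwa [show A + -(2 / p : ℝ) • H + ((p : ℝ)⁻¹ • H + -((p * q : ℝ)⁻¹ • G - D)) +
      (r * (p * q))⁻¹ • r • L = D + A by
    rw [hL]; match_scalars <;> field_simp <;> ring] at this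

theorem nef_bar_iff (hM : M.Proj) : Nef (bar M D) ↔ M.Nef D := ⟨nef_desc hM, nef_bar hM⟩

/-- **NCL** -/
theorem ncl : NCL := fun n K _ _ hK β H hH h => by
  have hβ : β ∈ Car K := by
    simpa using sub_mem (h 1 one_pos).car ((Car K).smul_mem 1 hH)
  obtain ⟨M, D, hM, k⟩ := com' hK (β := ![β, H]) (Fin.forall_fin_two.2 ⟨hβ, hH⟩)
  have a : β = bar M (D 0) := (k 0).2.1
  have b : H = bar M (D 1) := (k 1).2.1
  rw [a]
  refine nef_bar hM (nef_lim hM (E := D 1) fun ε e => nef_desc hM ?_)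
  rw [map_add, map_smul, ← a, ← b]
  exact h ε e

end Vale.Agent.P287D.In
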